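import Vale.Agent.P283R.Bx.St

/-!
# P283R, mild singularities: the interface
-/

namespace Vale.Agent.P283R.Tg

open Vale.Agent.P287D

/-- **EM**: a klt point with trivial canonical class, at which the log discrepancies of the places
centred at the point exceed `a + b ord (m)`, has embedding dimension at most `E` -/
def EM (d E : ℕ) (a b : ℝ) : Prop :=
  ∀ (F : Type) [Field F] [Algebra ℂ F] (S : Subalgebra ℂ F) (p : Ideal S) (y : Fin d → F) (h : F),
    Aff d S → IsIntegrallyClosed S → p.IsMaximal → Frm y → h ≠ 0 →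
    (∀ R, PDat S p R → ld y 1 h R = 1) →
    (∀ q : Ideal S, q ≤ p → ∀ R, Cen S q R → 0 < ld y 1 h R) →
    (∀ R, Cen S p R → ∃ x ∈ p, x ≠ 0 ∧ a + b * R.ord (x : F) < ld y 1 h R) → Bx.Emd E S p

end Vale.Agent.P283R.Tg
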