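import Vale.Agent.P283R.Tg.Gl2
import Vale.Agent.P283R.T3.St
import Vale.Agent.P283R.Be2.All

/-!
# P283R: mild index one covers in every dimension
-/

namespace Vale.Agent.P283R.Sl

theorem on_cdv_of (h : T3.MILD) :
    On fun d _ Z f ω B z => 3 ≤ d ∧ Crepant f ω B z ∧ MildCover d (d - 3) Z z :=
  on_mild' Be2.abe (E := fun d => d + 1) fun d hd => by
    obtain ⟨n, rfl⟩ := Nat.exists_eq_add_of_le' hd
    exact h n

end Vale.Agent.P283R.Sl
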