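import Vale.Agent.P283R.Tg.Gl
import Vale.Agent.P283R.Tg.Top2
import Vale.Agent.P283R.Sl.Ml2

/-!
# P283R, mild index one covers: from the tier to the scheme statement
-/

set_option linter.all false

open Set CategoryTheory AlgebraicGeometry
open Vale.Agent.P289 Vale.Agent.P289.H219 Vale.Agent.P270L Vale.Agent.P283M.Am Vale.Agent.P299.G

noncomputable section

namespace Vale.Agent.P283R.Tg

open Vale.Agent.P287D Vale.Agent.P283M Vale.Agent.P283M.Br Vale.Agent.P283M.Stm.Var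
open Vale.Agent.P283M.Stm (Contraction Pair HasKltComplement)
open Vale.Agent.P297Z Vale.Agent.P283R.Br Vale.Agent.P283R.Et Vale.Agent.P283R.Bx

/-- **the glue** for a given index -/
theorem glue' {d E Q N β : ℕ} {ε : ℝ} (hd : 1 ≤ d) (hε : 0 < ε) (hQ : 1 ≤ Q) (N1 : 1 ≤ N)
    (hN : Tg.Be' d Q β ε N) {X Z W : Stm.Var} {f : X.X ⟶ Z.X} {ω : DForm ℂ X.K d} {B : X.QDiv}
    {D : Z.PrimeDiv → ℚ} {π : W.X ⟶ Z.X} {x : Pt W.X} (hdim : dimension X.str = d)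
    (hω : ω.Nonzero) (hB : Pair (ε ≤ ·) ⊤ ω B) (hf : Contraction f) (hp : P283R.Stm.Birational f)
    (hg : ∃ m g, 0 < m ∧ ∀ y : Pt X.X, y.map f = x.map π → LocalEq (logCan ω B) m g y)
    (hz : IsClosed ({x.map π} : Set (Pt Z.X)))
    (hD : ∀ (E : X.PrimeDiv) (y : Z.PrimeDiv), E.1.map f = y.1 → B E = D y)
    {D' : W.PrimeDiv → ℚ} {η : DForm ℂ W.K d} {U : W.X.Opens} {r : ℕ} {a : W.K} {S : Type}
    [CommRing S] [Algebra ℂ S] [IsDomain S] [Etale π] (he : π ≫ Z.str = W.str)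
    (wc : IsClosed ({x} : Set (Pt W.X)))
    (hD' : ∀ (E : W.PrimeDiv) (y : Z.PrimeDiv), E.1.map π = y.1 → D' E = D y) (η0 : η.Nonzero)
    (hU : IsAffineOpen U) (zU : x ∈ U) (r0 : 0 < r) (ha : LocalEq (logCan η 0 + D') r a x)
    {G : Subgroup (S ≃ₐ[ℂ] S)} {i : W.K →ₐ[ℂ] FractionRing S}
    (l : Sl.IsCover E {a : W.K | ∀ x ∈ U, RegAt a x} G i) {s : FractionRing S} {u : Sˣ}
    (e : i a ^ Q = algebraMap S _ u * s ^ r) {η' : DForm ℂ W.K d} {r' : ℕ} {a' : W.K}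
    (η0' : η'.Nonzero) (r0' : 0 < r') (ha' : LocalEq (logCan η' 0) r' a' x) {s' : FractionRing S}
    (e' : i a' = s' ^ r') (ml : ∀ (M : Stm.Model W) (E : M.Y.PrimeDiv), E.1.map M.π = x →
      ∃ t, RegAt t x ∧ ¬ RegAt t⁻¹ x ∧ ∀ e k : ℤ, 0 < e →
        e * (1 + (formOrd η' M.pull E - (ord (M.pull a') E : ℝ) / r')) = k →
          1 + β * e * ord (M.pull t) E < k) :
    HasKltComplement f ω B (2 * N) (x.map π) := by
  obtain ⟨p, hp⟩ := hp
  obtain ⟨m, g, m0, hg⟩ := hg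
  obtain ⟨A, χ, bs⟩ := exists_bs ctr_id pb_id hU zU wc
  let _ := alg (RingEquiv.refl W.K) i
  have := alg_tower (p := RingEquiv.refl W.K) i fun _ => rfl
  have hq := cov hU zU l bs
  have a0 : i a ≠ 0 := (map_ne_zero i).2 ha.1
  have u0 : algebraMap S (FractionRing S) u ≠ 0 := (u.isUnit.map _).ne_zero
  have s0 : s ≠ 0 := fun k => pow_ne_zero Q a0 (by rw [e, k, zero_pow r0.ne', mul_zero])
  refine coreE hd hε hdim hω hB hf hp m0 hg hz he hU zU bs N1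
    fun hK g g0 h1 h2 => ?_
  obtain ⟨h, h0, fr⟩ := frm W _ hK η η0
  have h3 : i h ≠ 0 := (map_ne_zero i).2 h0
  have hG := Cv.gq hK hq
  obtain ⟨h', h0', fr'⟩ := frm W _ hK η' η0'
  have h3' : i h' ≠ 0 := (map_ne_zero i).2 h0'
  have s0' : s' ≠ 0 := fun k => (map_ne_zero i).2 ha'.1 (by rw [e', k, zero_pow r0'.ne'])
  have ctr : ∀ P, Thr A χ P → ∃ y ∈ U, Dom P.ring y ∧ y ⤳ x := fun P hP =>
    let ⟨y, a, b, x', c, e⟩ := bs.fib ctr_id hP
    ⟨y, a, b, (show x' = x from e) ▸ c⟩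
  refine hN W.K _ _ _ A χ m g (s / i h ^ Q) r' (a' / h' ^ r') (s' / i h') hK hG m0 g0 h1
    (fun P hP k => ?_) (div_ne_zero s0 (pow_ne_zero _ h3)) (fun R P c k hP => ?_)
    (div_ne_zero s0' h3') (fun R => ?_) (fun P hP k => ?_) fun P hP k => ?_
  rotate_left 2
  · change (R.ord (i (a' / h' ^ r')) : ℝ) / r' = _
    rw [map_div₀, map_pow, e', ← div_pow, Pl.ord_pow, Int.cast_mul, Int.cast_natCast,
      mul_div_cancel_left₀ _ (Nat.cast_ne_zero.2 r0'.ne')]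
  · obtain ⟨y, y1, y2, y3⟩ := ctr P hP
    exact (coef' fr' r0' h0' (B := 0) (E := ⟨y, bs.codim y1 y2 k⟩)
      ⟨ha'.1, fun E hE => ha'.2 E (hE.trans y3)⟩ y2).trans (neg_eq_zero.2 Rat.cast_zero)
  · obtain ⟨y, y1, y2, y3⟩ := ctr P hP
    obtain rfl : y = x := (y3.antisymm (spec_of_un hU y1 zU fun t ht u =>
      (bs.uz ⟨t, (bs.memZ t).2 (mem_reg.1 ht)⟩).1 fun c => y2.rd u (k _ c))).eq
    obtain ⟨M, E, c, j⟩ := mod W P y y2
    have o := (plc W M.Y M.pull (mdc W M).1 E).2 P j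
    obtain ⟨t, t1, t2, t3⟩ := ml M E c
    rw [fr' _ _ E P j o, o, o] at t3
    obtain ⟨b, hb, b', hb', u', rfl⟩ := bs.frac hU zU (g := t) t1
    replace u' : UnAt b' y := u'
    have b0 : b ≠ 0 := fun c => t2 (by rw [c, zero_div, inv_zero]; exact ⟨0, map_zero _⟩)
    refine ⟨⟨b, hb⟩, by_contra fun c => t2 ?_, fun c => b0 (congrArg Subtype.val c), ?_⟩
    · rw [inv_div, div_eq_mul_inv]
      exact reg_mul u'.2.1 ((bs.uz _).1 c).2.2
    · rw [Pl.ord_div _ b0 u'.1, y2.ord u', sub_zero] at t3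
      rw [dsc_eq r0' ha'.1 h0']
      exact t3
  · obtain ⟨E, -, -, -, -, -, -, e⟩ := h2 P hP k
    rw [e, neg_nonpos]
    exact_mod_cast hB.1 E trivial
  obtain ⟨k1, k2⟩ := (fre d _ _ _ _ A hG).1 R P c k
  obtain ⟨E, y, y₀, e0, e1, e2, e3, e4⟩ := h2 P hP k1
  obtain ⟨P', i1, i2⟩ := pl_of plc y
  obtain rfl : P' = P := Pl.ext' (congrArg _ (Pl.eq_of_le' (v := P'.toPlace) (w := P.toPlace)
    fun b hb => by
      rcases eq_or_ne b 0 with rfl | b0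
      · exact zero_mem _
      exact (Pl.ord_nonneg_iff _ b0).1 (e3 b ▸ i2 b ▸ Pl.ord_nonneg_of_mem _ hb)))
  have f1 := fr _ _ y P' i1 i2
  have f2 : ((ord a y : ℤ) : ℚ) = r * ((formOrd η (RingEquiv.refl W.K) y : ℚ) + 0 + D' y) :=
    ha.2 y e2
  have f3 : (P'.ord a : ℝ) = r * ((formOrd η (RingEquiv.refl W.K) y : ℝ) + (B E : ℝ)) := by
    rw [hD E y₀ e0, ← hD' y y₀ e1, ← i2]
    rw [add_zero] at f2
    exact_mod_cast f2
  obtain ⟨c1, c2, -⟩ := c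
  have m1 : ∀ v : S, 0 ≤ R.ord (algebraMap S (FractionRing S) v) := fun v =>
    Pl.ord_nonneg_of_mem _ (c2 ⟨_, v, rfl⟩).1
  have v0 : R.ord (algebraMap S (FractionRing S) u) = 0 := by
    have := Pl.ord_mul R.toPlace u0 (u⁻¹.isUnit.map (algebraMap S (FractionRing S))).ne_zero
    rw [← map_mul, u.mul_inv, map_one, Pl.ord_one] at this
    have := m1 u
    have := m1 u⁻¹.1
    omega
  have v := congrArg R.ord e
  have o : ∀ b, R.ord (i b) = P'.ord b := fun b => by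
    have := k.ord b
    rwa [k2, one_mul] at this
  rw [Pl.ord_mul _ u0 (pow_ne_zero _ s0), v0, Pl.ord_pow, Pl.ord_pow, o, zero_add] at v
  have v' : (Q : ℝ) * P'.ord a = r * R.ord s := by exact_mod_cast v
  have rR : (r : ℝ) ≠ 0 := Nat.cast_ne_zero.2 r0.ne'
  have QR : (Q : ℝ) ≠ 0 := Nat.cast_ne_zero.2 (by omega)
  rw [f3, mul_left_comm, mul_right_inj' rR, f1] at v'
  simp only [dsc, Pi.sub_apply, Pi.smul_apply, dv, smul_eq_mul] at e4
  rw [Pl.ord_div _ s0 (pow_ne_zero _ h3), Pl.ord_pow, o, eq_div_iff QR, div_eq_inv_mul]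
  push_cast
  linear_combination v' - Q * e4

end Vale.Agent.P283R.Tg

namespace Vale.Agent.P283R.Sl

open Var P283M.Br

/-- **mild singularities** -/
theorem on_mild' (h : Bx.ABE) {E b : ℕ → ℕ} {s : ℕ → Prop}
    (em : ∀ d, s d → Tg.EM d (E d) 1 (b d)) :
    On fun d _ Z f ω B z => s d ∧ Crepant f ω B z ∧ MildCover d (b d) Z z := by
  intro d hd ε hε R hR
  by_cases c : s d
  swap
  · exact ⟨1, le_rfl, fun _ _ _ _ _ _ _ _ _ _ _ _ u => (c u.1).elim⟩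
  have q0 : 1 ≤ ∏ a ∈ R, a.den := Finset.prod_pos (s := R) fun a _ => Rat.den_pos a
  obtain ⟨N, N1, H⟩ := Tg.top' h (em d c) q0 hε
  refine ⟨2 * N, by omega, fun X Z f ω B z hdim hω hB hc hf hz u => (has_iff f ω B _ z).2 ?_⟩
  obtain ⟨-, cr, η', m', g', η0', m0', hg', ml⟩ := u
  obtain ⟨D, η, V, m, g, hD, hdZ, η0, zV, m0, hg, hq⟩ := pair_down (q := ∏ a ∈ R, a.den) hd hdim hω
    hf hz cr fun y => by
      by_cases k : B.coeff y = 0
      · exact ⟨0, by rw [k, mul_zero, Int.cast_zero]⟩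
      exact (Br.den R (hc y k) (hR _ (hc y k)).1).elim fun j e => ⟨j, e⟩
  obtain ⟨n, rfl⟩ : ∃ n, d = n + 1 := ⟨d - 1, by omega⟩
  have hK := ffd Z.o _ hdZ
  obtain ⟨h', -, fr⟩ := frm Z.o _ hK η' η0'
  obtain ⟨_, ⟨U, hU, rfl⟩, zU, UV⟩ := Z.X.isBasis_affineOpens.exists_subset_of_mem_open
    (show z ∈ (V : Set Z.X) ∩ {x | LocalEq (logCan η' 0) m' g' x} from ⟨zV, hg'⟩)
    (V.isOpen.inter (Br.open_localEq (X := Z.o) hK fr 0 m' g'))
  obtain ⟨N', S, _, _, G, i, t, l, e⟩ := Tg.chart (X := Z.o) (r := fun j : Bool => cond j m m')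
    (g := fun j => cond j (g ^ ∏ a ∈ R, a.den) g') hK hU zU hz
    (Bool.forall_bool.2 ⟨hg'.1, pow_ne_zero _ (hg z zV).1⟩) (Bool.forall_bool.2 ⟨m0', m0⟩)
    (Bool.forall_bool.2 ⟨fun E hE => pow_one g' ▸ dvd_ord (q := 1) (D := 0) (k := 0)
      ((add_zero (logCan η' 0)).symm ▸ (UV hE).2) (mul_zero _),
      fun E hE => (hq E (UV hE).1).elim fun k hk => dvd_ord (hg _ (UV hE).1) hk⟩)
  have := l.domain
  exact Tg.glue' (X := X.o) (Z := Z.o) (W := Z.o) (π := 𝟙 _) (D' := D) (u := 1) hd hε q0 N1 H hdim hω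
    ((pair_iff _ _ ω B).1 hB) hf cr.1 cr.2 hz hD (Category.id_comp _) hz
    (fun E y h => congrArg D (Subtype.ext h)) η0 hU zU m0 (hg z zV) l
    (((map_pow i g _).symm.trans (e true)).trans (by rw [Units.val_one, map_one, one_mul]; rfl))
    η0' m0' hg' (e false) fun M => ml (Model.nw M)

end Vale.Agent.P283R.Sl
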