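import Vale.Agent.P283R.Ix.Alg

/-!
# P283R: abelian covers which are étale in codimension one
-/

set_option linter.all false

open Set Polynomial

noncomputable section

namespace Vale.Agent.P283R.Tg

open Ix (root_const)

variable {K ι : Type} [Field K] [Algebra ℂ K]

/-- the conclusion -/
def Cov (A : Subalgebra ℂ K) (a : ι → K) (r : ι → ℕ) : Prop :=
  ∃ (S : Type) (_ : CommRing S) (_ : Algebra ℂ S) (G : Subgroup (S ≃ₐ[ℂ] S))
    (i : K →ₐ[ℂ] FractionRing S) (s : ι → FractionRing S), IsDomain S ∧ Algebra.FiniteType ℂ S ∧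
    IsIntegrallyClosed S ∧ Finite G ∧
    (∀ g ∈ G, g ≠ 1 → ∀ p : Ideal S, p.IsPrime → (∀ s, g s - s ∈ p) → 2 ≤ p.height) ∧
    (∀ b, (∃ a ∈ A, i a = b) ↔ ∃ s, (∀ g ∈ G, g s = s) ∧ algebraMap S _ s = b) ∧
    ∀ j, i (a j) = s j ^ r j

theorem cover_of (A : Subalgebra ℂ K) [IsFractionRing A K] [IsIntegrallyClosed A]
    [Algebra.FiniteType ℂ A] {a : ι → K} (a0 : ∀ j, a j ≠ 0) {r : ι → ℕ} (r0 : ∀ j, 0 < r j)
    (h : ∀ j, ∀ p : Ideal A, p.IsPrime → p.height = 1 →
      ∃ (t : K) (b c : A), b ∉ p ∧ c ∉ p ∧ a j * c = b * t ^ r j)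
    (L : Type) [Field L] [Algebra K L] [Algebra ℂ L] [IsScalarTower ℂ K L] [FiniteDimensional K L]
    [IsGalois K L] {α : ι → L} (hα : ∀ j, α j ^ r j = algebraMap K L (a j))
    (gen : ∀ σ : L ≃ₐ[K] L, (∀ j, σ (α j) = α j) → σ = 1) (S : Type) [CommRing S] [Algebra A S] [Algebra ℂ S]
    [Algebra S L] [IsScalarTower A S L] [IsScalarTower ℂ A S] [IsScalarTower ℂ S L]
    [IsIntegralClosure S A L] : Cov A a r := by
  classical
  have : IsNoetherianRing A := Algebra.FiniteType.isNoetherianRing ℂ A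
  have js : Function.Injective (algebraMap S L) := IsIntegralClosure.algebraMap_injective S A L
  have : IsDomain S := js.isDomain _
  have : IsFractionRing S L := IsIntegralClosure.isFractionRing_of_finite_extension A K L S
  have : Module.Finite A S := IsIntegralClosure.finite A K L S
  have ft : Algebra.FiniteType ℂ S := .trans (S := A) inferInstance inferInstance
  have : IsNoetherianRing S := Algebra.FiniteType.isNoetherianRing ℂ S
  have tw : ∀ x : A, algebraMap S L (algebraMap A S x) = algebraMap K L x := fun x =>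
    (IsScalarTower.algebraMap_apply A S L x).symm
  have : FaithfulSMul A S := (faithfulSMul_iff_algebraMap_injective _ _).2 fun x y e =>
    Subtype.ext ((algebraMap K L).injective (by rw [← tw, ← tw, e]))
  have nor : IsIntegrallyClosed S := (isIntegrallyClosed_iff L).2 fun {x} hx =>
    (IsIntegralClosure.isIntegral_iff (A := S) (R := A)).1 (isIntegral_trans x hx)
  let e := (FractionRing.algEquiv S L).restrictScalars ℂ
  have he : ∀ s : S, e.symm (algebraMap S L s) = algebraMap S _ s := fun s =>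
    (FractionRing.algEquiv S L).symm.commutes s
  clear_value e
  let ρ : (L ≃ₐ[K] L) →* (S ≃ₐ[ℂ] S) :=
    { toFun := fun σ => (galRestrict A K L S σ).restrictScalars ℂ
      map_one' := by rw [map_one]; rfl
      map_mul' := fun σ τ => by rw [map_mul]; rfl }
  have hρ : ∀ σ (s : S), algebraMap S L (ρ σ s) = σ (algebraMap S L s) := fun σ s =>
    algebraMap_galRestrict_apply A σ s
  clear_value ρ
  refine ⟨S, inferInstance, inferInstance, ρ.range,
    e.symm.toAlgHom.comp (IsScalarTower.toAlgHom ℂ K L), fun j => e.symm (α j), inferInstance, ft, nor,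
    (finite_range ρ).to_subtype, ?_, fun b => ⟨?_, ?_⟩, fun j => ?_⟩
  · rintro _ ⟨σ, rfl⟩ g1 p pp hp
    obtain ⟨j, σ1⟩ := not_forall.1 fun k => g1 (by rw [gen σ k, map_one])
    replace h := h j
    replace hα := hα j
    replace a0 := a0 j
    replace r0 := r0 j
    generalize α j = α at hα σ1
    generalize a j = a at h hα a0
    generalize r j = r at h hα r0
    have α0 : α ≠ 0 := fun k =>
      (_root_.map_ne_zero (algebraMap K L)).2 a0 (by rw [← hα, k, zero_pow r0.ne'])
    obtain ⟨ζ, hζ⟩ := root_const (z := σ α / α) r0 (by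
      rw [div_pow, ← map_pow, hα, σ.commutes, div_self ((_root_.map_ne_zero _).2 a0)])
    have ζ1 : ζ - 1 ≠ 0 := fun k => σ1 (by
      rw [sub_eq_zero.1 k, map_one, eq_comm, div_eq_one_iff_eq α0] at hζ
      exact hζ)
    by_contra lt
    have le : (p.under A).height ≤ 1 := by
      have := Ideal.height_eq_height_add_of_liesOver_of_hasGoingDown (p.under A) p
      refine le_trans (this ▸ le_self_add) (Order.le_of_lt_succ ?_)
      exact not_le.1 lt
    rcases le.eq_or_lt with k | k
    · obtain ⟨t, b, c, hb, hc, k⟩ := h _ inferInstance k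
      have c0 : (c : K) ≠ 0 := fun z => hc ((Subtype.ext z : c = 0) ▸ zero_mem _)
      have t0 : t ≠ 0 := fun z => mul_ne_zero a0 c0 (by rw [k, z, zero_pow r0.ne', mul_zero])
      obtain ⟨n, rfl⟩ : ∃ n, r = n + 1 := ⟨r - 1, by omega⟩
      have w : (algebraMap K L (c / t) * α) ^ (n + 1) = algebraMap A L (b * c ^ n) := by
        rw [mul_pow, hα, ← map_pow, ← map_mul]
        refine congrArg (algebraMap K L) (?_ : _ = (b : K) * c ^ n)
        rw [div_pow, div_mul_eq_mul_div, div_eq_iff (pow_ne_zero _ t0)]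
        linear_combination (c : K) ^ n * k
      obtain ⟨γ, hγ⟩ := (IsIntegralClosure.isIntegral_iff (A := S)).1
        (IsIntegral.of_pow r0 (w ▸ isIntegral_algebraMap))
      have u : ρ σ γ - γ = algebraMap ℂ S (ζ - 1) * γ := js (by
        rw [map_sub, map_mul, ← IsScalarTower.algebraMap_apply, hρ, map_sub, hζ, map_one, hγ,
          map_mul, σ.commutes]
        field_simp)
      have m : γ ∈ p := (Ideal.unit_mul_mem_iff_mem p ((IsUnit.mk0 _ ζ1).map _)).1 (u ▸ hp γ)
      have m' : b * c ^ n ∈ p.under A := by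
        change algebraMap A S _ ∈ p
        rw [show algebraMap A S (b * c ^ n) = γ ^ (n + 1) from js (by
          rw [map_pow, hγ, w, ← IsScalarTower.algebraMap_apply])]
        exact Ideal.pow_mem_of_mem p m _ r0
      rcases (Ideal.IsPrime.under A p).mem_or_mem m' with x | x
      exacts [hb x, hc ((Ideal.IsPrime.under A p).mem_of_pow_mem n x)]
    · have z : p.under A = ⊥ := Ideal.height_eq_zero_iff_eq_bot.1 (Order.lt_one_iff.1 k)
      have z' : p = ⊥ := Ideal.eq_bot_of_comap_eq_bot z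
      exact g1 (AlgEquiv.ext fun s => sub_eq_zero.1 (Ideal.mem_bot.1 (z' ▸ hp s)))
  · rintro ⟨x, hx, rfl⟩
    refine ⟨algebraMap A S ⟨x, hx⟩, ?_, (he _).symm.trans (congrArg e.symm (tw _))⟩
    rintro _ ⟨σ, rfl⟩
    exact js (by rw [hρ, tw, σ.commutes])
  · rintro ⟨s, hs, rfl⟩
    obtain ⟨x, hx⟩ := (IsGalois.mem_bot_iff_fixed (F := K) (algebraMap S L s)).2 fun σ =>
      (hρ σ s).symm.trans (congrArg _ (hs _ ⟨σ, rfl⟩))
    have hx' : algebraMap K L x = algebraMap S L s := hx
    have i : IsIntegral A x := (isIntegral_algebraMap_iff (algebraMap K L).injective).1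
      (hx' ▸ (IsIntegralClosure.isIntegral_iff (A := S)).2 ⟨s, rfl⟩)
    obtain ⟨y, rfl⟩ := IsIntegrallyClosed.isIntegral_iff.1 i
    exact ⟨y, y.2, (congrArg e.symm hx').trans (he s)⟩
  · rw [← map_pow, hα]
    rfl

theorem cover_int (A : Subalgebra ℂ K) [IsFractionRing A K] [IsIntegrallyClosed A]
    [Algebra.FiniteType ℂ A] {a : ι → K} (a0 : ∀ j, a j ≠ 0) {r : ι → ℕ} (r0 : ∀ j, 0 < r j)
    (h : ∀ j, ∀ p : Ideal A, p.IsPrime → p.height = 1 →
      ∃ (t : K) (b c : A), b ∉ p ∧ c ∉ p ∧ a j * c = b * t ^ r j)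
    (L : Type) [Field L] [Algebra K L] [Algebra ℂ L] [IsScalarTower ℂ K L] [FiniteDimensional K L]
    [IsGalois K L] {α : ι → L} (hα : ∀ j, α j ^ r j = algebraMap K L (a j))
    (gen : ∀ σ : L ≃ₐ[K] L, (∀ j, σ (α j) = α j) → σ = 1) : Cov A a r :=
  cover_of A a0 r0 h L hα gen (integralClosure A L)

theorem cover [Fintype ι] (A : Subalgebra ℂ K) [IsFractionRing A K] [IsIntegrallyClosed A]
    [Algebra.FiniteType ℂ A] {a : ι → K} (a0 : ∀ j, a j ≠ 0) {r : ι → ℕ} (r0 : ∀ j, 0 < r j)
    (h : ∀ j, ∀ p : Ideal A, p.IsPrime → p.height = 1 →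
      ∃ (t : K) (b c : A), b ∉ p ∧ c ∉ p ∧ a j * c = b * t ^ r j) : Cov A a r := by
  have : CharZero K := charZero_of_injective_algebraMap (algebraMap ℂ K).injective
  let f : K[X] := ∏ j, (X ^ r j - C (a j))
  let L := f.SplittingField
  have : Normal K L := Normal.of_isSplittingField f
  have : IsGalois K L := {}
  have sp := SplittingField.splits f
  have f0 : f ≠ 0 := Finset.prod_ne_zero_iff.2 fun j _ => X_pow_sub_C_ne_zero (r0 j) (a j)
  have ex : ∀ j, ∃ α : L, α ^ r j = algebraMap K L (a j) := fun j => by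
    obtain ⟨α, hα⟩ := (sp.of_dvd (Polynomial.map_ne_zero f0) (Polynomial.map_dvd _
      (Finset.dvd_prod_of_mem _ (Finset.mem_univ j)))).exists_eval_eq_zero (by
        rw [degree_map, degree_X_pow_sub_C (r0 j)]
        exact_mod_cast (r0 j).ne')
    exact ⟨α, by simpa [sub_eq_zero] using hα⟩
  choose α hα using ex
  refine cover_int A a0 r0 h L hα fun σ k => ?_
  refine AlgEquiv.coe_algHom_injective (AlgHom.ext_of_adjoin_eq_top
    (SplittingField.adjoin_rootSet f) fun β hβ => ?_)
  obtain ⟨j, e⟩ : ∃ j, β ^ r j = algebraMap K L (a j) := by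
    simpa [f, map_prod, Finset.prod_eq_zero_iff, sub_eq_zero] using (mem_rootSet.1 hβ).2
  have α0 : α j ≠ 0 := fun k =>
    (_root_.map_ne_zero (algebraMap K L)).2 (a0 j) (by rw [← hα, k, zero_pow (r0 j).ne'])
  obtain ⟨ζ, hζ⟩ := root_const (z := β / α j) (r0 j) (by
    rw [div_pow, e, hα, div_self ((_root_.map_ne_zero _).2 (a0 j))])
  have : β = algebraMap K L (algebraMap ℂ K ζ) * α j := by
    rw [← IsScalarTower.algebraMap_apply, hζ, div_mul_cancel₀ _ α0]
  change σ β = β
  rw [this, map_mul, σ.commutes, k]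

end Vale.Agent.P283R.Tg
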