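import Vale.Agent.P283R.Tg.Cdv
import Vale.Agent.P283R.T3.M2w
import Vale.Agent.P283R.T3.Shr

/-!
# P283R: mild index one covers, unconditionally
-/

namespace Vale.Agent.P283R.Sl

theorem on_cdv : On fun d _ Z f ω B z => 3 ≤ d ∧ Crepant f ω B z ∧ MildCover d (d - 3) Z z :=
  on_cdv_of (T3.mild_of' T3.m2 T3.shr)

end Vale.Agent.P283R.Sl
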