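import Vale.Agent.P283R.Tg.St
import Vale.Agent.P283R.Bx.Top
import Vale.Agent.P283R.Tp.Hrt
import Vale.Agent.P283M.Br.Bas

/-!
# P283R, mild singularities: the top of the chain
-/

set_option linter.all false

open Set

noncomputable section

namespace Vale.Agent.P283R.Tg

open Vale.Agent.P287D Vale.Agent.P283R.Tq Vale.Agent.P297Z

/-- the tier statement for a given index `N` -/
def Be (d Q : ℕ) (a b ε : ℝ) (N : ℕ) : Prop :=
  ∀ (K L : Type) [Field K] [Algebra ℂ K] [Field L] [Algebra ℂ L] [Algebra K L]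
    [IsScalarTower ℂ K L] (G : Subgroup (L ≃ₐ[ℂ] L)) (S : Subalgebra ℂ L) (A : Subalgebra ℂ K)
    (χ : A →ₐ[ℂ] ℂ) (m : ℕ) (g : K) (h : L) (m' : ℕ) (g' : K) (h' : L), FF K d → Gq d G S A →
    0 < m → g ≠ 0 → (∀ P, Thr A χ P → ε ≤ 1 + dsc d ((m : ℝ)⁻¹ • dv g) P) →
    (∀ P, Thr A χ P → Prm A P → dsc d ((m : ℝ)⁻¹ • dv g) P ≤ 0) → h ≠ 0 →
    (∀ (R : Pl L) (P : Pl K), PD S R → Lies (algebraMap K L) R P → Thr A χ P →
      (P.ord g : ℝ) / m = R.ord h / Q) → h' ≠ 0 →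
    (∀ R : Pl L, (R.ord (algebraMap K L g') : ℝ) / m' = R.ord h') →
    (∀ P, Thr A χ P → Prm A P → dsc d ((m' : ℝ)⁻¹ • dv g') P = 0) →
    (∀ P, Thr A χ P → (∀ x : A, χ x = 0 → P.rd x = 0) → ∃ x : A, χ x = 0 ∧ x ≠ 0 ∧
      a + b * P.ord (x : K) < 1 + dsc d ((m' : ℝ)⁻¹ • dv g') P) → Et.Con d N A χ m g

theorem top (ha : Bx.ABE) {d E Q : ℕ} {a b ε : ℝ} (em : EM d E a b) (a0 : 0 ≤ a) (hQ : 1 ≤ Q)
    (hε : 0 < ε) : ∃ N : ℕ, 1 ≤ N ∧ Be d Q a b ε N := by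
  obtain ⟨J, n₀, hn₀, ha⟩ := ha d E Q ε hQ hε
  have hn : 2 ≤ 2 * (n₀ * Q) := Nat.le_mul_of_pos_right _ (Nat.mul_pos hn₀ hQ)
  refine ⟨2 * (n₀ * Q) * J.factorial, Nat.mul_pos (by omega) J.factorial_pos, ?_⟩
  intro K L _ _ _ _ _ _ G S A χ m g h m' g' h' hK hG hm hg h1 h2 h0 h3 k0 k1 k2 k3
  obtain ⟨y, D, hy, hcn⟩ := Cb.exists_cn hK
  have hP := pr ram hK hG ⟨D, hy⟩ hm hg
  refine core ram nt Fin.one fre hK hG ⟨D, hy⟩ hcn hm hg hn fun p hp pp => ?_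
  obtain ⟨r, hr, r1, r2⟩ := Mi.exists_max fre hG hp pp
  have eff : ∀ R, PDat S r R →
      ld (fun i => algebraMap K L (y i)) m (algebraMap K L g) R ≤ 1 := fun R hR => by
    obtain ⟨P, l, e1, e2, e3, e4⟩ := ld_pd ram fre hK hG ⟨D, hy⟩ hcn m g hr hR
    have := h2 P e1 e2
    linarith
  have hy' := fun (p' : Ideal S) (e : p' ≤ r) => hyp ram hK hG ⟨D, hy⟩ hcn hε h1 (W.mono hr e)
  have e1 : ∀ R, ld (fun i => algebraMap K L (y i)) 1 h' R =
      ld (fun i => algebraMap K L (y i)) m' (algebraMap K L g') R := fun R => by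
    rw [ld, ld, k1, Nat.cast_one, div_one]
  have one : ∀ R, PDat S r R → ld (fun i => algebraMap K L (y i)) 1 h' R = 1 := fun R hR => by
    obtain ⟨P, l, e2, e3, -, e4⟩ := ld_pd ram fre hK hG ⟨D, hy⟩ hcn m' g' hr hR
    rw [k2 P e2 e3, ← e1] at e4
    linarith
  have m0 : (0 : ℝ) < m := Nat.cast_pos.2 hm
  have w0 := div_ne_zero hP.ne (pow_ne_zero m k0)
  have ow : ∀ R : Pl L, (R.ord (algebraMap K L g / h' ^ m) : ℝ) =
      m * (ld (fun i => algebraMap K L (y i)) 1 h' R -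
        ld (fun i => algebraMap K L (y i)) m (algebraMap K L g) R) := fun R => by
    rw [Pl.ord_div _ hP.ne (pow_ne_zero m k0), Pl.ord_pow, ld, ld]
    push_cast
    field_simp
    ring
  have lo := (hrt d L S hG.aff hG.nor).2.2.1 r r1.isPrime _ fun R hR =>
    (Pl.ord_nonneg_iff _ w0).1 (Int.cast_nonneg_iff.1 ((ow R).symm ▸ mul_nonneg m0.le
      (by linarith [one R hR, eff R hR]) : (0 : ℝ) ≤ _))
  have pos : ∀ q : Ideal S, q ≤ r → ∀ R, Cen S q R →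
      0 < ld (fun i => algebraMap K L (y i)) 1 h' R := fun q e R c => by
    obtain ⟨s, t, ht, st⟩ := lo
    have a1 : (0 : ℝ) ≤ R.ord (algebraMap K L g / h' ^ m) := Int.cast_nonneg_iff.2
      (Pl.ord_nonneg_of_mem _ (Hr.cen_lo c ⟨s, t, fun k => ht (e k), st⟩))
    have a2 := hy' q e R c 1 one_pos fun _ _ _ => by simp
    rw [ow] at a1
    have a3 := nonneg_of_mul_nonneg_right a1 m0
    simp only [Nat.cast_one, mul_one] at a2
    linarith
  refine ha _ (by omega) ⟨2 * Q, by ring⟩ ⟨2 * n₀, by ring⟩ L G S p r _ m _ h hP pp r1 r2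
    (em L S r _ h' hG.aff hG.nor r1 hP.fr k0 one pos fun R c => ?_) ⟨h0, fun R hR => ?_⟩ eff hy'
  · obtain ⟨P, l⟩ := Pb.down hK hG.aff.ff R
    have th := thr hG hr c l
    have : Algebra.FiniteType ℂ S := (Subalgebra.fg_iff_finiteType S).1 hG.aff.fg
    have mem : ∀ x : A, χ x = 0 → (⟨_, (hG.mem x).1 x.2⟩ : S) ∈ r := fun x e => by
      obtain ⟨c, hc⟩ := P283M.Br.res_surj r r1 (Ideal.Quotient.mk r ⟨_, (hG.mem x).1 x.2⟩)
      have k := Ideal.Quotient.eq.1 hc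
      have := hr (algebraMap ℂ A c - x) _ (by
        rw [Subalgebra.coe_sub, Subalgebra.coe_sub, map_sub, Subalgebra.coe_algebraMap,
          Subalgebra.coe_algebraMap, ← IsScalarTower.algebraMap_apply]) k
      rw [map_sub, e, sub_zero, AlgHom.commutes] at this
      obtain rfl : c = 0 := this
      simpa using k
    obtain ⟨x, x1, x0, x2⟩ := k3 P th fun x e =>
      (rd_lies l (th.1 x x.2)).1 ((c _).2.1 (mem x e))
    refine ⟨_, mem x x1, fun k => x0 (Subtype.ext ((map_eq_zero _).1 (congrArg Subtype.val k))), ?_⟩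
    have e0 : (1 : ℝ) ≤ R.ord (algebraMap K L P.t) := by exact_mod_cast l.e_pos
    rw [e1, ld_up ram hK hG.aff.ff ⟨D, hy⟩ hcn m' g' l]
    change a + b * R.ord (algebraMap K L x) < _
    rw [l.ord, Int.cast_mul]
    nlinarith [mul_lt_mul_of_pos_left x2 (zero_lt_one.trans_le e0), mul_le_mul_of_nonneg_right e0 a0]
  · obtain ⟨P, l, e1, e2, e3, -⟩ := ld_pd ram fre hK hG ⟨D, hy⟩ hcn m g hr hR
    obtain ⟨q', -, c1, c2⟩ := hR
    rw [← h3 R P ⟨q', c1, c2⟩ l e1, l.ord g, e3, one_mul]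

end Vale.Agent.P283R.Tg
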