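import Vale.Agent.P283R.Tg.Alg
import Vale.Agent.P283R.Tg.Top
import Vale.Agent.P283R.Bx.Gl
import Vale.Agent.P283R.Ix.All
import Vale.Agent.P283R.Sl.Ml

/-!
# P283R, mild singularities: from the tier to the scheme statement
-/

set_option linter.all false

open Set CategoryTheory AlgebraicGeometry
open Vale.Agent.P289 Vale.Agent.P289.H219 Vale.Agent.P270L Vale.Agent.P283M.Am Vale.Agent.P299.G

noncomputable section

namespace Vale.Agent.P283R.Tg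

open Vale.Agent.P287D Vale.Agent.P283M Vale.Agent.P283M.Br Vale.Agent.P283M.Stm.Var
open Vale.Agent.P283M.Stm (Contraction Pair HasKltComplement)
open Vale.Agent.P297Z Vale.Agent.P283R.Br Vale.Agent.P283R.Et Vale.Agent.P283R.Bx

/-- the cover of an affine chart on which `div g` is divisible by `r` -/
theorem chart {ι : Type} [Fintype ι] {d : ℕ} {r : ι → ℕ} {X : Stm.Var} (hK : FF X.K d)
    {U : X.X.Opens} (hU : IsAffineOpen U) {z : Pt X.X} (zU : z ∈ U)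
    (hz : IsClosed ({z} : Set (Pt X.X))) {g : ι → X.K} (g0 : ∀ j, g j ≠ 0)
    (r0 : ∀ j, 0 < r j) (h : ∀ j, ∀ E : X.PrimeDiv, E.1 ∈ U → (r j : ℤ) ∣ ord (g j) E) :
    ∃ (N : ℕ) (S : Type) (_ : CommRing S) (_ : Algebra ℂ S) (G : Subgroup (S ≃ₐ[ℂ] S))
      (i : X.K →ₐ[ℂ] FractionRing S) (s : ι → FractionRing S),
      Sl.IsCover N {a : X.K | ∀ x ∈ U, RegAt a x} G i ∧ ∀ j, i (g j) = s j ^ r j := by
  obtain ⟨A, χ, bs⟩ := exists_bs ctr_id pb_id hU zU hz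
  have fr := bs_fr bs hU zU
  have := bs_nor bs hU zU
  have := IsFractionRing.of_field A X.K fr
  have : Algebra.FiniteType ℂ A := (Subalgebra.fg_iff_finiteType A).1 bs.fg
  obtain ⟨S, _, _, G, i, s, h1, h2, h3, h4, h5, h6, h7⟩ := cover A g0 r0 fun j p pp hp => by
    replace h := h j
    replace g0 := g0 j
    generalize g j = g at h g0
    generalize r j = r at h
    obtain ⟨R, c, lo⟩ := (hrt d _ A ⟨hK, bs.fg, fr⟩ inferInstance).2.2.2 p pp hp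
    obtain ⟨x, hx, dm⟩ := bs.ctr R fun a ha => (c ⟨a, ha⟩).1
    have cd := bs.codim hx dm fun a ha =>
      let ⟨s, t, ht, e⟩ := lo a ha
      ⟨s, s.2, t, t.2, mt (c t).2.2 ht, e⟩
    obtain ⟨Q, e, o⟩ := pl_of plc (X := X) ⟨x, cd⟩
    obtain rfl := pl_eq e dm
    obtain ⟨k, hk⟩ := h ⟨x, cd⟩ hx
    rw [o] at hk
    have t0 : (Q.t ^ k) ^ r ≠ 0 := pow_ne_zero _ (zpow_ne_zero _ (Bm.ord_t Q).1)
    have v : Q.ord (g / (Q.t ^ k) ^ r) = 0 := by
      rw [Pl.ord_div _ g0 t0, Pl.ord_pow, Pl.ord_zpow, (Bm.ord_t Q).2, hk, mul_one, sub_self]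
    have w0 := div_ne_zero g0 t0
    obtain ⟨b, c', hc, e'⟩ := lo _ ((Pl.ord_nonneg_iff _ w0).1 v.ge)
    have c0 : (c' : X.K) ≠ 0 := fun k => hc (by rw [show c' = 0 from Subtype.ext k]; exact zero_mem _)
    have b0 : (b : X.K) ≠ 0 := fun k => w0 (by rw [e', k, zero_div])
    refine ⟨Q.t ^ k, b, c', fun hb => ?_, hc, (div_eq_div_iff t0 c0).1 e'⟩
    have o1 := ((Bm.rd_zero_iff Q (c b).1).1 ((c b).2.1 hb)).resolve_left b0
    have o2 := mt (fun k => (c c').2.2 ((Bm.rd_zero_iff Q (c c').1).2 (.inr k))) hc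
    rw [e', Pl.ord_div _ b0 c0] at v
    omega
  obtain ⟨N, hN⟩ := Ix.embdim S
  exact ⟨N, S, _, _, G, i, s, ⟨h1, h2, h3, hN, h4, h5, fun b => Iff.trans
    (exists_congr fun a => and_congr_left' (bs.mem a).symm) (h6 b)⟩, h7⟩

/-- **the glue** for a given index -/
theorem glue {d E Q N : ℕ} {α β ε : ℝ} (hd : 1 ≤ d) (hε : 0 < ε) (hQ : 1 ≤ Q) (N1 : 1 ≤ N)
    (hN : Tg.Be d Q α β ε N) {X Z W : Stm.Var} {f : X.X ⟶ Z.X} {ω : DForm ℂ X.K d} {B : X.QDiv}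
    {D : Z.PrimeDiv → ℚ} {π : W.X ⟶ Z.X} {x : Pt W.X} (hdim : dimension X.str = d)
    (hω : ω.Nonzero) (hB : Pair (ε ≤ ·) ⊤ ω B) (hf : Contraction f) (hp : P283R.Stm.Birational f)
    (hg : ∃ m g, 0 < m ∧ ∀ y : Pt X.X, y.map f = x.map π → LocalEq (logCan ω B) m g y)
    (hz : IsClosed ({x.map π} : Set (Pt Z.X)))
    (hD : ∀ (E : X.PrimeDiv) (y : Z.PrimeDiv), E.1.map f = y.1 → B E = D y)
    {D' : W.PrimeDiv → ℚ} {η : DForm ℂ W.K d} {U : W.X.Opens} {r : ℕ} {a : W.K} {S : Type}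
    [CommRing S] [Algebra ℂ S] [IsDomain S] [Etale π] (he : π ≫ Z.str = W.str)
    (wc : IsClosed ({x} : Set (Pt W.X)))
    (hD' : ∀ (E : W.PrimeDiv) (y : Z.PrimeDiv), E.1.map π = y.1 → D' E = D y) (η0 : η.Nonzero)
    (hU : IsAffineOpen U) (zU : x ∈ U) (r0 : 0 < r) (ha : LocalEq (logCan η 0 + D') r a x)
    {G : Subgroup (S ≃ₐ[ℂ] S)} {i : W.K →ₐ[ℂ] FractionRing S}
    (l : Sl.IsCover E {a : W.K | ∀ x ∈ U, RegAt a x} G i) {s : FractionRing S} {u : Sˣ}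
    (e : i a ^ Q = algebraMap S _ u * s ^ r) {η' : DForm ℂ W.K d} {r' : ℕ} {a' : W.K}
    (η0' : η'.Nonzero) (r0' : 0 < r') (ha' : LocalEq (logCan η' 0) r' a' x) {s' : FractionRing S}
    (e' : i a' = s' ^ r') (ml : ∀ (M : Stm.Model W) (E : M.Y.PrimeDiv), E.1.map M.π = x →
      ∃ t, RegAt t x ∧ ¬ RegAt t⁻¹ x ∧ α + β * ord (M.pull t) E <
        1 + (formOrd η' M.pull E - (ord (M.pull a') E : ℝ) / r')) :
    HasKltComplement f ω B (2 * N) (x.map π) := by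
  obtain ⟨p, hp⟩ := hp
  obtain ⟨m, g, m0, hg⟩ := hg
  obtain ⟨A, χ, bs⟩ := exists_bs ctr_id pb_id hU zU wc
  let _ := alg (RingEquiv.refl W.K) i
  have := alg_tower (p := RingEquiv.refl W.K) i fun _ => rfl
  have hq := cov hU zU l bs
  have a0 : i a ≠ 0 := (map_ne_zero i).2 ha.1
  have u0 : algebraMap S (FractionRing S) u ≠ 0 := (u.isUnit.map _).ne_zero
  have s0 : s ≠ 0 := fun k => pow_ne_zero Q a0 (by rw [e, k, zero_pow r0.ne', mul_zero])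
  refine coreE hd hε hdim hω hB hf hp m0 hg hz he hU zU bs N1
    fun hK g g0 h1 h2 => ?_
  obtain ⟨h, h0, fr⟩ := frm W _ hK η η0
  have h3 : i h ≠ 0 := (map_ne_zero i).2 h0
  have hG := Cv.gq hK hq
  obtain ⟨h', h0', fr'⟩ := frm W _ hK η' η0'
  have h3' : i h' ≠ 0 := (map_ne_zero i).2 h0'
  have s0' : s' ≠ 0 := fun k => (map_ne_zero i).2 ha'.1 (by rw [e', k, zero_pow r0'.ne'])
  have ctr : ∀ P, Thr A χ P → ∃ y ∈ U, Dom P.ring y ∧ y ⤳ x := fun P hP =>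
    let ⟨y, a, b, x', c, e⟩ := bs.fib ctr_id hP
    ⟨y, a, b, (show x' = x from e) ▸ c⟩
  refine hN W.K _ _ _ A χ m g (s / i h ^ Q) r' (a' / h' ^ r') (s' / i h') hK hG m0 g0 h1
    (fun P hP k => ?_) (div_ne_zero s0 (pow_ne_zero _ h3)) (fun R P c k hP => ?_)
    (div_ne_zero s0' h3') (fun R => ?_) (fun P hP k => ?_) fun P hP k => ?_
  rotate_left 2
  · change (R.ord (i (a' / h' ^ r')) : ℝ) / r' = _
    rw [map_div₀, map_pow, e', ← div_pow, Pl.ord_pow, Int.cast_mul, Int.cast_natCast,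
      mul_div_cancel_left₀ _ (Nat.cast_ne_zero.2 r0'.ne')]
  · obtain ⟨y, y1, y2, y3⟩ := ctr P hP
    exact (coef' fr' r0' h0' (B := 0) (E := ⟨y, bs.codim y1 y2 k⟩)
      ⟨ha'.1, fun E hE => ha'.2 E (hE.trans y3)⟩ y2).trans (neg_eq_zero.2 Rat.cast_zero)
  · obtain ⟨y, y1, y2, y3⟩ := ctr P hP
    obtain rfl : y = x := (y3.antisymm (spec_of_un hU y1 zU fun t ht u =>
      (bs.uz ⟨t, (bs.memZ t).2 (mem_reg.1 ht)⟩).1 fun c => y2.rd u (k _ c))).eq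
    obtain ⟨M, E, c, j⟩ := mod W P y y2
    have o := (plc W M.Y M.pull (mdc W M).1 E).2 P j
    obtain ⟨t, t1, t2, t3⟩ := ml M E c
    rw [fr' _ _ E P j o, o, o] at t3
    obtain ⟨b, hb, b', hb', u', rfl⟩ := bs.frac hU zU (g := t) t1
    replace u' : UnAt b' y := u'
    have b0 : b ≠ 0 := fun c => t2 (by rw [c, zero_div, inv_zero]; exact ⟨0, map_zero _⟩)
    refine ⟨⟨b, hb⟩, by_contra fun c => t2 ?_, fun c => b0 (congrArg Subtype.val c), ?_⟩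
    · rw [inv_div, div_eq_mul_inv]
      exact reg_mul u'.2.1 ((bs.uz _).1 c).2.2
    · rw [Pl.ord_div _ b0 u'.1, y2.ord u', sub_zero] at t3
      rw [dsc_eq r0' ha'.1 h0']
      exact t3
  · obtain ⟨E, -, -, -, -, -, -, e⟩ := h2 P hP k
    rw [e, neg_nonpos]
    exact_mod_cast hB.1 E trivial
  obtain ⟨k1, k2⟩ := (fre d _ _ _ _ A hG).1 R P c k
  obtain ⟨E, y, y₀, e0, e1, e2, e3, e4⟩ := h2 P hP k1
  obtain ⟨P', i1, i2⟩ := pl_of plc y
  obtain rfl : P' = P := Pl.ext' (congrArg _ (Pl.eq_of_le' (v := P'.toPlace) (w := P.toPlace)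
    fun b hb => by
      rcases eq_or_ne b 0 with rfl | b0
      · exact zero_mem _
      exact (Pl.ord_nonneg_iff _ b0).1 (e3 b ▸ i2 b ▸ Pl.ord_nonneg_of_mem _ hb)))
  have f1 := fr _ _ y P' i1 i2
  have f2 : ((ord a y : ℤ) : ℚ) = r * ((formOrd η (RingEquiv.refl W.K) y : ℚ) + 0 + D' y) :=
    ha.2 y e2
  have f3 : (P'.ord a : ℝ) = r * ((formOrd η (RingEquiv.refl W.K) y : ℝ) + (B E : ℝ)) := by
    rw [hD E y₀ e0, ← hD' y y₀ e1, ← i2]
    rw [add_zero] at f2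
    exact_mod_cast f2
  obtain ⟨c1, c2, -⟩ := c
  have m1 : ∀ v : S, 0 ≤ R.ord (algebraMap S (FractionRing S) v) := fun v =>
    Pl.ord_nonneg_of_mem _ (c2 ⟨_, v, rfl⟩).1
  have v0 : R.ord (algebraMap S (FractionRing S) u) = 0 := by
    have := Pl.ord_mul R.toPlace u0 (u⁻¹.isUnit.map (algebraMap S (FractionRing S))).ne_zero
    rw [← map_mul, u.mul_inv, map_one, Pl.ord_one] at this
    have := m1 u
    have := m1 u⁻¹.1
    omega
  have v := congrArg R.ord e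
  have o : ∀ b, R.ord (i b) = P'.ord b := fun b => by
    have := k.ord b
    rwa [k2, one_mul] at this
  rw [Pl.ord_mul _ u0 (pow_ne_zero _ s0), v0, Pl.ord_pow, Pl.ord_pow, o, zero_add] at v
  have v' : (Q : ℝ) * P'.ord a = r * R.ord s := by exact_mod_cast v
  have rR : (r : ℝ) ≠ 0 := Nat.cast_ne_zero.2 r0.ne'
  have QR : (Q : ℝ) ≠ 0 := Nat.cast_ne_zero.2 (by omega)
  rw [f3, mul_left_comm, mul_right_inj' rR, f1] at v'
  simp only [dsc, Pi.sub_apply, Pi.smul_apply, dv, smul_eq_mul] at e4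
  rw [Pl.ord_div _ s0 (pow_ne_zero _ h3), Pl.ord_pow, o, eq_div_iff QR, div_eq_inv_mul]
  push_cast
  linear_combination v' - Q * e4

end Vale.Agent.P283R.Tg

namespace Vale.Agent.P283R.Sl

open Var P283M.Br

/-- the pair on the base -/
theorem pair_down {d q : ℕ} {X Z : Var} {f : X.X ⟶ Z.X} {ω : X.Form d} {B : X.QDiv} {z : Pt Z.X}
    (hd : 1 ≤ d) (hdim : dimension X.str = d) (hω : ω.Nonzero) (hf : Contraction f)
    (hz : z.Closed) (hc : Crepant f ω B z) (hB : ∀ y, ∃ k : ℤ, q * B.coeff y = k) :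
    ∃ (D : Z.PrimeDiv → ℚ) (η : Z.Form d) (V : Z.X.Opens) (m : ℕ) (g : Z.K),
      SameCoeff f B.coeff D ∧ dimension Z.str = d ∧ η.Nonzero ∧ z.In V ∧ 0 < m ∧
      (∀ x : Pt Z.X, x.In V → LocalEq (logCan η 0 + D) m g x) ∧
      ∀ y : Z.PrimeDiv, y.1.In V → ∃ k : ℤ, q * D y = k := by
  classical
  obtain ⟨⟨p, hp⟩, m, g, m0, hg⟩ := hc
  obtain ⟨n, rfl⟩ : ∃ n, d = n + 1 := ⟨d - 1, by omega⟩
  have hp' : Br.Pb (X := X.o) (Z := Z.o) f p := hp
  have cs := hp'.cst hf.1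
  let e : Z.K ≃ₐ[ℂ] X.K := { p with commutes' := cs }
  have hK := ffd X.o _ hdim
  obtain ⟨h, h0, fr⟩ := frm X.o _ hK ω hω
  have pl := fun y => plc X.o Z.o p.symm (fun c => p.symm_apply_eq.2 (cs c).symm) y
  choose P hP using fun y => (pl y).1
  have un : ∀ {E E' : X.PrimeDiv} {y : Z.PrimeDiv}, E.1.map f = y.1 → E'.1.map f = y.1 → E = E' :=
    fun {E E' y} a b => Ix.over_uniq hp' (hP y) a b
  let D : Z.PrimeDiv → ℚ := fun y =>
    if k : ∃ E : X.PrimeDiv, E.1.map f = y.1 then B.coeff k.choose else 0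
  have hD : SameCoeff f B.coeff D := fun E y a => by
    have k : ∃ E : X.PrimeDiv, E.1.map f = y.1 := ⟨E, a⟩
    rw [un a k.choose_spec]
    exact (show D y = _ from dif_pos k).symm
  have := hf.2.1
  let U' : Z.X.Opens := ⟨(f '' {x : X.X | LocalEq (logCan ω B) m g x}ᶜ)ᶜ,
    (f.isClosedMap _ (Br.open_localEq (X := X.o) hK fr B m g).isClosed_compl).isOpen_compl⟩
  obtain ⟨_, ⟨V, hV, rfl⟩, zV, UV⟩ := Z.X.isBasis_affineOpens.exists_subset_of_mem_open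
    (show z ∈ U' from fun ⟨x, a, b⟩ => a (hg x b)) U'.isOpen
  obtain ⟨x₀, hx₀⟩ := hf.2.2.1.surj z
  have hdZ : dimension Z.str = (n + 1 : ℕ) := e.trdeg_eq.trans hdim
  exact ⟨D, Ix.tr e ω, V, m, p.symm g, hD, hdZ, Ix.tr_ne e hω, zV, m0,
    (fun x hx => ⟨(map_ne_zero _).2 (hg x₀ hx₀).1, fun y s => by
      have yV : y.1 ∈ V := s.mem_open V.isOpen hx
      obtain ⟨E, a⟩ := Ix.exists_over (X := X.o) (Z := Z.o) hf hp' hV zV hz (hP y) yV
      have i := Ix.is_over hp' (hP y) a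
      have o : ∀ g, ord g E = ord (p.symm g) y := fun g =>
        ((plc X.o X.o (RingEquiv.refl _) (fun _ => rfl) E).2 _ i g).trans
          ((pl y).2 _ (hP y) g).symm
      have l : LocalEq (logCan ω B) m g E.1 := by_contra fun k => UV yV ⟨E.1, k, a⟩
      have t : formOrd (Ix.tr e ω) (RingEquiv.refl Z.K) y = formOrd ω (RingEquiv.refl X.K) E :=
        Ix.tr_ord e ω (fun g => (i g).symm.trans (hP y g)) o
      rw [← o, l.2 E specializes_rfl, Pi.add_apply, ← hD E y a]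
      unfold logCan
      rw [t]
      exact congrArg _ (congrArg (· + _) (add_zero _).symm)⟩),
    fun y yV => let ⟨E, a⟩ := Ix.exists_over (X := X.o) (Z := Z.o) hf hp' hV zV hz (hP y) yV
      hD E y a ▸ hB E⟩

theorem dvd_ord {d q m : ℕ} {Z : Var} {η : Z.Form d} {D : Z.PrimeDiv → ℚ} {g : Z.K}
    {E : Z.PrimeDiv} (h : LocalEq (logCan η 0 + D) m g E.1) {k : ℤ} (hk : q * D E = k) :
    (m : ℤ) ∣ ord (g ^ q) E := by
  obtain ⟨P, -, o⟩ := pl_of plc (X := Z.o) E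
  have a : ((P.ord g : ℤ) : ℚ) = m * ((formOrd η (RingEquiv.refl Z.K) E : ℚ) + 0 + D E) :=
    o g ▸ h.2 E specializes_rfl
  refine ⟨q * formOrd η (RingEquiv.refl Z.K) E + k, (o _).trans ?_⟩
  rw [P297Z.Pl.ord_pow, ← Int.cast_inj (α := ℚ)]
  push_cast
  rw [a, ← hk]
  ring

/-- **mild singularities** -/
theorem on_mild (h : Bx.ABE) {E : ℕ → ℕ} {a b : ℕ → ℝ} {s : ℕ → Prop}
    (em : ∀ d, s d → Tg.EM d (E d) (a d) (b d)) (a0 : ∀ d, 0 ≤ a d) :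
    On fun d _ Z f ω B z => s d ∧ Crepant f ω B z ∧ Mild d (a d) (b d) Z z := by
  intro d hd ε hε R hR
  by_cases c : s d
  swap
  · exact ⟨1, le_rfl, fun _ _ _ _ _ _ _ _ _ _ _ _ u => (c u.1).elim⟩
  have q0 : 1 ≤ ∏ a ∈ R, a.den := Finset.prod_pos (s := R) fun a _ => Rat.den_pos a
  obtain ⟨N, N1, H⟩ := Tg.top h (em d c) (a0 d) q0 hε
  refine ⟨2 * N, by omega, fun X Z f ω B z hdim hω hB hc hf hz u => (has_iff f ω B _ z).2 ?_⟩
  obtain ⟨-, cr, η', m', g', η0', m0', hg', ml⟩ := u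
  obtain ⟨D, η, V, m, g, hD, hdZ, η0, zV, m0, hg, hq⟩ := pair_down (q := ∏ a ∈ R, a.den) hd hdim hω
    hf hz cr fun y => by
      by_cases k : B.coeff y = 0
      · exact ⟨0, by rw [k, mul_zero, Int.cast_zero]⟩
      exact (Br.den R (hc y k) (hR _ (hc y k)).1).elim fun j e => ⟨j, e⟩
  obtain ⟨n, rfl⟩ : ∃ n, d = n + 1 := ⟨d - 1, by omega⟩
  have hK := ffd Z.o _ hdZ
  obtain ⟨h', -, fr⟩ := frm Z.o _ hK η' η0'
  obtain ⟨_, ⟨U, hU, rfl⟩, zU, UV⟩ := Z.X.isBasis_affineOpens.exists_subset_of_mem_open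
    (show z ∈ (V : Set Z.X) ∩ {x | LocalEq (logCan η' 0) m' g' x} from ⟨zV, hg'⟩)
    (V.isOpen.inter (Br.open_localEq (X := Z.o) hK fr 0 m' g'))
  obtain ⟨N', S, _, _, G, i, t, l, e⟩ := Tg.chart (X := Z.o) (r := fun j : Bool => cond j m m')
    (g := fun j => cond j (g ^ ∏ a ∈ R, a.den) g') hK hU zU hz
    (Bool.forall_bool.2 ⟨hg'.1, pow_ne_zero _ (hg z zV).1⟩) (Bool.forall_bool.2 ⟨m0', m0⟩)
    (Bool.forall_bool.2 ⟨fun E hE => pow_one g' ▸ dvd_ord (q := 1) (D := 0) (k := 0)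
      ((add_zero (logCan η' 0)).symm ▸ (UV hE).2) (mul_zero _),
      fun E hE => (hq E (UV hE).1).elim fun k hk => dvd_ord (hg _ (UV hE).1) hk⟩)
  have := l.domain
  exact Tg.glue (X := X.o) (Z := Z.o) (W := Z.o) (π := 𝟙 _) (D' := D) (u := 1) hd hε q0 N1 H hdim hω
    ((pair_iff _ _ ω B).1 hB) hf cr.1 cr.2 hz hD (Category.id_comp _) hz
    (fun E y h => congrArg D (Subtype.ext h)) η0 hU zU m0 (hg z zV) l
    (((map_pow i g _).symm.trans (e true)).trans (by rw [Units.val_one, map_one, one_mul]; rfl))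
    η0' m0' hg' (e false) fun M => ml (Model.nw M)

end Vale.Agent.P283R.Sl
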